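import Vale.Agent.P348h.Magnon

open Finset Function

namespace P348h

variable {L : ℕ}

/-- basis vector -/
noncomputable def dl (a : Fin 3) : Fin 3 → ℂ := fun c => if c = a then 1 else 0

/-- singlet pair at the bond `k`, other factors from `u` -/
noncomputable def A (k : Fin L) (u : Fin L → Fin 3 → ℂ) : Vec L :=
  ∑ a, pr (update (update u k (dl a)) (next k) (dl a))

lemma pr_update (u : Fin L → Fin 3 → ℂ) (j : Fin L) (f : Fin 3 → ℂ) (x : Fin L → Fin 3) :
    pr (update u j f) x = f (x j) * ∏ k ∈ univ.erase j, u k (x k) := by
  unfold pr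
  rw [← mul_prod_erase univ _ (mem_univ j), update_self]
  congr 1
  apply prod_congr rfl
  intro k hk
  rw [update_of_ne (mem_erase.mp hk).1]

/-- multilinearity at site `j` -/
lemma pr_lin (u : Fin L → Fin 3 → ℂ) (j : Fin L) (f : Fin 3 → ℂ) :
    ∑ a, f a • pr (update u j (dl a)) = pr (update u j f) := by
  funext x
  simp only [Finset.sum_apply, Pi.smul_apply, smul_eq_mul, pr_update, dl]
  simp

lemma e_pr' (hL : 2 ≤ L) (j : Fin L) (u : Fin L → Fin 3 → ℂ) :
    e j (pr u) = ((1 / 3 : ℂ) * ∑ c, u j c * u (next j) c) • A j u := by
  have hne := next_ne hL j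
  funext x
  have h1 : ∀ c, pr u (put j (next j) c x) = (u j c * u (next j) c) *
        ∏ k ∈ (univ.erase j).erase (next j), u k (x k) := by
    intro c
    simp only [pr]
    rw [← mul_prod_erase univ _ (mem_univ j),
      ← mul_prod_erase (univ.erase j) _ (mem_erase.mpr ⟨hne.symm, mem_univ (next j)⟩),
      put_a, put_b, mul_assoc]
    congr 2
    apply prod_congr rfl
    intro k hk
    have hk1 := (mem_erase.mp hk).1
    have hk2 := (mem_erase.mp (mem_erase.mp hk).2).1
    simp only [put]
    rw [update_of_ne hk1, update_of_ne hk2]
  have h2 : A j u x = if x j = x (next j) then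
      ∏ k ∈ (univ.erase j).erase (next j), u k (x k) else 0 := by
    unfold A
    rw [Finset.sum_apply]
    have : ∀ a : Fin 3, pr (update (update u j (dl a)) (next j) (dl a)) x =
        (if x j = a then (if x (next j) = a then
          ∏ k ∈ (univ.erase j).erase (next j), u k (x k) else 0) else 0) := by
      intro a
      rw [pr_update, ← mul_prod_erase (univ.erase (next j)) _
        (mem_erase.mpr ⟨hne, mem_univ j⟩), update_self, erase_right_comm]
      have : ∏ k ∈ (univ.erase j).erase (next j), update u j (dl a) k (x k) =
          ∏ k ∈ (univ.erase j).erase (next j), u k (x k) := by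
        apply prod_congr rfl
        intro k hk
        rw [update_of_ne (mem_erase.mp (mem_erase.mp hk).2).1]
      rw [this]
      unfold dl
      split_ifs <;> simp
    simp only [this]
    rw [sum_ite_eq univ (x j)]
    simp only [mem_univ, if_true]
    by_cases h : x j = x (next j)
    · rw [if_pos h, if_pos h.symm]
    · rw [if_neg h, if_neg (fun h' => h h'.symm)]
  simp only [e, P, Pi.smul_apply, smul_eq_mul, h1, h2]
  by_cases h : x j = x (next j)
  · rw [if_pos h, if_pos h, ← sum_mul]; ring
  · rw [if_neg h, if_neg h]; simp

lemma dl_dl (a : Fin 3) : ∑ c, dl a c * dl a c = 1 := by simp [dl]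
lemma dl_v (a : Fin 3) : ∑ c, dl a c * v c = v a := by simp [dl]
lemma v_dl (a : Fin 3) : ∑ c, v c * dl a c = v a := by simp [dl]

/-- the arc state -/
noncomputable def arc (j : Fin L) : Vec L := A j (fun _ => v)

lemma e_arc_self (hL : 3 ≤ L) (j : Fin L) : e j (arc j) = arc j := by
  have hne := next_ne (show 2 ≤ L by omega) j
  have hL2 : 2 ≤ L := by omega
  unfold arc
  conv_lhs => unfold A
  rw [e_sum]
  have : ∀ a : Fin 3, e j (pr (update (update (fun _ => v) j (dl a)) (next j) (dl a))) =
      (1 / 3 : ℂ) • A j (fun _ => v) := by
    intro a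
    rw [e_pr' hL2, update_self, update_of_ne hne, update_self, dl_dl, mul_one]
    congr 1
    unfold A
    apply sum_congr rfl
    intro b _
    congr 1
    funext k
    by_cases h1 : k = next j
    · subst h1; simp
    · by_cases h2 : k = j
      · subst h2; simp [h1]
      · simp [h1, h2]
  simp only [this, sum_const, card_univ, Fintype.card_fin]
  funext x
  simp only [Pi.smul_apply, smul_eq_mul, nsmul_eq_mul]
  push_cast
  ring

lemma e_arc_next (hL : 3 ≤ L) (j : Fin L) :
    e (next j) (arc j) = (1 / 3 : ℂ) • arc (next j) := by
  have hL2 : 2 ≤ L := by omega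
  have h1 := next_ne hL2 j
  have h2 := next_ne hL2 (next j)
  have h3 := next_next_ne hL j
  unfold arc
  conv_lhs => unfold A
  rw [e_sum]
  have : ∀ a : Fin 3, e (next j) (pr (update (update (fun _ => v) j (dl a)) (next j) (dl a))) =
      (1 / 3 : ℂ) • ∑ b, v a • pr (update (update (update (fun _ => v) (next j) (dl b))
        (next (next j)) (dl b)) j (dl a)) := by
    intro a
    rw [e_pr' hL2, update_self, update_of_ne h2.symm, update_of_ne h3.symm, dl_v, ← smul_smul]
    congr 1
    unfold A
    rw [smul_sum]
    apply sum_congr rfl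
    intro b _
    congr 2
    funext k
    by_cases k1 : k = j
    · subst k1
      rw [update_of_ne h3, update_of_ne h1, update_of_ne h1, update_self, update_self]
    · by_cases k2 : k = next j
      · subst k2
        rw [update_of_ne h2, update_self, update_of_ne h1.symm, update_of_ne h2, update_self]
      · by_cases k3 : k = next (next j)
        · subst k3
          rw [update_self, update_of_ne h3.symm, update_self]
        · rw [update_of_ne k3, update_of_ne k2, update_of_ne k2, update_of_ne k1,
            update_of_ne k1, update_of_ne k3, update_of_ne k2]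
  simp only [this]
  rw [← smul_sum, sum_comm]
  congr 1
  unfold A
  apply sum_congr rfl
  intro b _
  rw [pr_lin]
  congr 1
  funext k
  by_cases k1 : k = j
  · subst k1
    rw [update_self, update_of_ne h3, update_of_ne h1]
  · rw [update_of_ne k1]

lemma e_arc_prev (hL : 3 ≤ L) (j : Fin L) :
    e j (arc (next j)) = (1 / 3 : ℂ) • arc j := by
  have hL2 : 2 ≤ L := by omega
  have h1 := next_ne hL2 j
  have h2 := next_ne hL2 (next j)
  have h3 := next_next_ne hL j
  unfold arc
  conv_lhs => unfold A
  rw [e_sum]
  have : ∀ a : Fin 3, e j (pr (update (update (fun _ => v) (next j) (dl a))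
        (next (next j)) (dl a))) =
      (1 / 3 : ℂ) • ∑ b, v a • pr (update (update (update (fun _ => v) j (dl b))
        (next j) (dl b)) (next (next j)) (dl a)) := by
    intro a
    rw [e_pr' hL2, update_of_ne h3, update_of_ne h1, update_of_ne h2, update_self, v_dl,
      ← smul_smul]
    congr 1
    unfold A
    rw [smul_sum]
    apply sum_congr rfl
    intro b _
    congr 2
    funext k
    by_cases k1 : k = j
    · subst k1
      rw [update_of_ne h1, update_self, update_of_ne h3, update_of_ne h1, update_self]
    · by_cases k2 : k = next j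
      · subst k2
        rw [update_self, update_of_ne h2, update_self]
      · by_cases k3 : k = next (next j)
        · subst k3
          rw [update_of_ne h2.symm, update_of_ne h3.symm, update_self, update_self]
        · rw [update_of_ne k2, update_of_ne k1, update_of_ne k3, update_of_ne k2,
            update_of_ne k3, update_of_ne k2, update_of_ne k1]
  simp only [this]
  rw [← smul_sum, sum_comm]
  congr 1
  unfold A
  apply sum_congr rfl
  intro b _
  rw [pr_lin]
  congr 1
  funext k
  by_cases k1 : k = next (next j)
  · subst k1
    rw [update_self, update_of_ne h2.symm, update_of_ne h3.symm]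
  · rw [update_of_ne k1]

lemma e_arc_far (hL : 3 ≤ L) (j k : Fin L) (hjk : k ≠ j) (h1 : k ≠ next j) (h2 : next k ≠ j) :
    e k (arc j) = 0 := by
  have hL2 : 2 ≤ L := by omega
  have h3 : next k ≠ next j := fun h => hjk (next_inj h)
  unfold arc A
  rw [e_sum]
  apply sum_eq_zero
  intro a _
  apply e_pr hL2
  rw [update_of_ne h1, update_of_ne hjk, update_of_ne h3, update_of_ne h2]
  exact vv

end P348h
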