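import Vale.Agent.P348h.Magnon

open Finset Function

namespace P348h

variable {L : ℕ}

lemma SW_symm (hL : 2 ≤ L) (j : Fin L) (φ ψ : Vec L) : ip φ (SW j ψ) = ip (SW j φ) ψ := by
  have hne := next_ne hL j
  have hinv : Function.Involutive (sw j (next j)) := sw_sw _ _ hne
  unfold ip SW
  rw [← Equiv.sum_comp hinv.toPerm (fun x => (starRingEnd ℂ) (φ x) * ψ (sw j (next j) x))]
  apply sum_congr rfl
  intro x _
  simp only [Function.Involutive.coe_toPerm]
  rw [sw_sw _ _ hne]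

lemma SW_SW (hL : 2 ≤ L) (j : Fin L) (ψ : Vec L) : SW j (SW j ψ) = ψ := by
  funext x
  simp only [SW, sw_sw _ _ (next_ne hL j)]

lemma SW_im (hL : 2 ≤ L) (j : Fin L) (ψ : Vec L) : (ip ψ (SW j ψ)).im = 0 := by
  have h1 := ip_conj ψ (SW j ψ)
  rw [← SW_symm hL] at h1
  have h2 := congrArg Complex.im h1
  simp only [Complex.conj_im] at h2
  linarith

lemma SW_le (hL : 2 ≤ L) (j : Fin L) (ψ : Vec L) : (ip ψ (SW j ψ)).re ≤ (ip ψ ψ).re := by
  have h0 := ip_self_nonneg (ψ + (-1 : ℂ) • SW j ψ)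
  have h1 : ip (ψ + (-1 : ℂ) • SW j ψ) (ψ + (-1 : ℂ) • SW j ψ) =
      ip ψ ψ - ip ψ (SW j ψ) - ip (SW j ψ) ψ + ip (SW j ψ) (SW j ψ) := by
    rw [ip_add_left, ip_add_right, ip_add_right, ip_smul_left, ip_smul_left, ip_smul_right,
      ip_smul_right]
    simp only [map_neg, map_one]
    ring
  have h2 : ip (SW j ψ) ψ = ip ψ (SW j ψ) := (SW_symm hL j ψ ψ).symm
  have h3 : ip (SW j ψ) (SW j ψ) = ip ψ ψ := by
    rw [← SW_symm hL, SW_SW hL]
  rw [h1, h2, h3] at h0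
  simp only [Complex.add_re, Complex.sub_re] at h0
  linarith

lemma real_of (ψ : Vec L) : ip ψ ψ = (((ip ψ ψ).re : ℝ) : ℂ) := by
  apply Complex.ext
  · simp
  · simp [ip_self_im]

lemma eig_ferro (hL : 3 ≤ L) (a b c : ℝ) (hb : b ≤ 0) (hbc : b ≤ c) (E : ℂ)
    (h : IsEigenvalue L a b c E) : E.im = 0 ∧ L * (a + b + c) ≤ E.re := by
  have hL2 : 2 ≤ L := by omega
  obtain ⟨ψ, hψ, hE⟩ := h
  have hpos := ip_self_pos ψ hψ
  have h1 : ip ψ (H L a b c ψ) = ip ψ (E • ψ) := by rw [hE]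
  rw [H_eq hL2, ip_add_right, ip_add_right, ip_smul_right, ip_smul_right, ip_smul_right,
    ip_smul_right, ip_sum_right, ip_K hL, real_of ψ] at h1
  set N : ℝ := (ip ψ ψ).re with hN
  have hSW : ∀ j : Fin L, ip ψ (SW j ψ) = (((ip ψ (SW j ψ)).re : ℝ) : ℂ) := by
    intro j
    apply Complex.ext
    · simp
    · simp [SW_im hL2]
  have h2 : ∑ j, ip ψ (SW j ψ) = ((∑ j, (ip ψ (SW j ψ)).re : ℝ) : ℂ) := by
    rw [Complex.ofReal_sum]
    exact sum_congr rfl fun j _ => hSW j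
  rw [h2, ← Complex.ofReal_mul, ← Complex.ofReal_mul, ← Complex.ofReal_mul, ← Complex.ofReal_add,
    ← Complex.ofReal_add] at h1
  have hre := congrArg Complex.re h1
  have him := congrArg Complex.im h1
  simp only [Complex.ofReal_re, Complex.ofReal_im, Complex.mul_re, Complex.mul_im, mul_zero,
    sub_zero, zero_add] at hre him
  constructor
  · rcases mul_eq_zero.mp him.symm with h' | h'
    · exact h'
    · exact absurd h' hpos.ne'
  · have h3 : ∑ j : Fin L, (ip ψ (SW j ψ)).re ≤ L * N := by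
      calc ∑ j : Fin L, (ip ψ (SW j ψ)).re ≤ ∑ _j : Fin L, N :=
            sum_le_sum fun j _ => SW_le hL2 j ψ
        _ = L * N := by simp
    have h4 : 0 ≤ ∑ j, nn j ψ := sum_nonneg fun j _ => nn_nonneg j ψ
    have h5 : b * (L * N) ≤ b * ∑ j : Fin L, (ip ψ (SW j ψ)).re :=
      mul_le_mul_of_nonpos_left h3 hb
    have h6 : 0 ≤ 3 * (c - b) * ∑ j, nn j ψ := by
      apply mul_nonneg _ h4
      linarith
    have h7 : (L * (a + b + c)) * N ≤ E.re * N := by
      have : (L * (a + b + c)) * N = L * (a + c) * N + b * (L * N) := by ring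
      rw [this]
      linarith
    exact le_of_mul_le_mul_right h7 hpos

lemma K_gs (hL : 2 ≤ L) : K (gs L) = 0 := by
  unfold K
  exact sum_eq_zero fun j _ => e_gs hL j

lemma K_mag (hL : 2 ≤ L) : K (mag L) = 0 := by
  unfold K
  exact sum_eq_zero fun j _ => e_mag hL j

lemma eig_gs (hL : 2 ≤ L) (a b c : ℝ) : IsEigenvalue L a b c ((L * (a + b + c) : ℝ) : ℂ) := by
  refine ⟨gs L, gs_ne, ?_⟩
  rw [H_eq hL, K_gs hL]
  simp only [SW_gs hL, sum_const, card_univ, Fintype.card_fin]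
  funext x
  simp only [Pi.add_apply, Pi.smul_apply, smul_eq_mul, nsmul_eq_mul, Pi.zero_apply]
  push_cast
  simp
  ring

lemma eig_mag (hL : 2 ≤ L) (a b c : ℝ) :
    IsEigenvalue L a b c
      ((L * (a + b + c) - 2 * b * (1 - Real.cos (2 * Real.pi / L)) : ℝ) : ℂ) := by
  refine ⟨mag L, mag_ne hL, ?_⟩
  rw [H_eq hL, K_mag hL, SW_mag hL, ζ_add_inv]
  funext x
  simp only [Pi.add_apply, Pi.smul_apply, smul_eq_mul, Pi.zero_apply]
  push_cast
  ring

lemma eig_biq (hL : 3 ≤ L) (a c : ℝ) (hc : 0 < c) (E : ℂ) (h : IsEigenvalue L a 0 c E) :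
    E = ((L * (a + c) : ℝ) : ℂ) ∨ (E.im = 0 ∧ L * (a + c) + c ≤ E.re) := by
  have hL2 : 2 ≤ L := by omega
  obtain ⟨ψ, hψ, hE⟩ := h
  rw [H_eq hL2] at hE
  have hc' : ((3 * (c - 0) : ℝ) : ℂ) ≠ 0 := by
    rw [Ne, Complex.ofReal_eq_zero]; linarith
  have hK : K ψ = ((E - ((L * (a + c) : ℝ) : ℂ)) / ((3 * (c - 0) : ℝ) : ℂ)) • ψ := by
    funext x
    have hx := congrFun hE x
    simp only [Pi.add_apply, Pi.smul_apply, smul_eq_mul, Complex.ofReal_zero, zero_mul,
      add_zero] at hx ⊢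
    field_simp
    linear_combination hx
  rcases K_eig hL ψ hψ _ hK with h1 | ⟨h1, h2⟩
  · left
    rcases div_eq_zero_iff.mp h1 with h3 | h3
    · exact sub_eq_zero.mp h3
    · exact absurd h3 hc'
  · right
    rw [Complex.div_ofReal_im] at h1
    rw [Complex.div_ofReal_re] at h2
    simp only [Complex.sub_im, Complex.sub_re, Complex.ofReal_im, Complex.ofReal_re, sub_zero]
      at h1 h2
    constructor
    · rcases div_eq_zero_iff.mp h1 with h3 | h3
      · exact h3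
      · linarith
    · rw [le_div_iff₀ (by linarith)] at h2
      linarith

end P348h
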