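import Vale.Agent.P348h.Arc
import Vale.Agent.P348h.Final

open Finset Function

namespace P348h

variable {L : ℕ}

lemma A_apply (hL : 2 ≤ L) (j : Fin L) (u : Fin L → Fin 3 → ℂ) (x : Fin L → Fin 3) :
    A j u x = if x j = x (next j) then
      ∏ k ∈ (univ.erase j).erase (next j), u k (x k) else 0 := by
  have hne := next_ne hL j
  unfold A
  rw [Finset.sum_apply]
  have : ∀ a : Fin 3, pr (update (update u j (dl a)) (next j) (dl a)) x =
      (if x j = a then (if x (next j) = a then
        ∏ k ∈ (univ.erase j).erase (next j), u k (x k) else 0) else 0) := by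
    intro a
    rw [pr_update, ← mul_prod_erase (univ.erase (next j)) _
      (mem_erase.mpr ⟨hne, mem_univ j⟩), update_self, erase_right_comm]
    have : ∏ k ∈ (univ.erase j).erase (next j), update u j (dl a) k (x k) =
        ∏ k ∈ (univ.erase j).erase (next j), u k (x k) := by
      apply prod_congr rfl
      intro k hk
      rw [update_of_ne (mem_erase.mp (mem_erase.mp hk).2).1]
    rw [this]
    unfold dl
    split_ifs <;> simp
  simp only [this]
  rw [sum_ite_eq univ (x j)]
  simp only [mem_univ, if_true]
  by_cases h : x j = x (next j)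
  · rw [if_pos h, if_pos h.symm]
  · rw [if_neg h, if_neg (fun h' => h h'.symm)]

lemma e_arc (hL : 3 ≤ L) (k j : Fin L) :
    e k (arc j) = (if k = j then arc k else 0) + (if k = next j then (1 / 3 : ℂ) • arc k else 0) +
      (if next k = j then (1 / 3 : ℂ) • arc k else 0) := by
  have hL2 : 2 ≤ L := by omega
  by_cases h1 : k = j
  · subst h1
    rw [if_pos rfl, if_neg (next_ne hL2 k), if_neg (next_ne hL2 k).symm, e_arc_self hL]
    simp
  · rw [if_neg h1]
    by_cases h2 : k = next j
    · subst h2
      rw [if_pos rfl, if_neg (next_next_ne hL j).symm, e_arc_next hL]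
      simp
    · rw [if_neg h2]
      by_cases h3 : next k = j
      · subst h3
        rw [if_pos rfl, e_arc_prev hL]
        simp
      · rw [if_neg h3, e_arc_far hL j k h1 h2 h3]
        simp

/-- staggered sign -/
noncomputable def sg (j : Fin L) : ℂ := (-1) ^ j.val

lemma sg_next (hL : Even L) (j : Fin L) : sg (next j) = - sg j := by
  have hj := j.isLt
  unfold sg next
  simp only
  by_cases h : j.val + 1 = L
  · rw [h, Nat.mod_self, pow_zero]
    have h1 : (-1 : ℂ) ^ (j.val + 1) = 1 := by rw [h]; exact hL.neg_one_pow
    rw [pow_succ] at h1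
    linear_combination -h1
  · rw [Nat.mod_eq_of_lt (by omega), pow_succ]
    ring

/-- the staggered arc state -/
noncomputable def st (L : ℕ) : Vec L := ∑ j : Fin L, sg j • arc j

lemma K_st (hL : 3 ≤ L) (hE : Even L) : K (st L) = (1 / 3 : ℂ) • st L := by
  have h0 : K (st L) = ∑ k : Fin L, ∑ j : Fin L, sg j • e k (arc j) := by
    unfold K st
    apply sum_congr rfl
    intro k _
    rw [e_sum]
    simp only [e_smul]
  have h1 : ∀ k : Fin L, ∑ j : Fin L, sg j • e k (arc j) =
      sg k • arc k + (∑ j : Fin L, if k = next j then (sg j / 3 : ℂ) • arc k else 0) +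
        (sg (next k) / 3 : ℂ) • arc k := by
    intro k
    have : ∀ j : Fin L, sg j • e k (arc j) =
        (if k = j then sg j • arc k else 0) + (if k = next j then (sg j / 3 : ℂ) • arc k else 0) +
        (if next k = j then (sg j / 3 : ℂ) • arc k else 0) := by
      intro j
      rw [e_arc hL, smul_add, smul_add]
      congr 1
      · congr 1
        · split_ifs <;> simp
        · split_ifs
          · rw [smul_smul]; congr 1; ring
          · simp
      · split_ifs
        · rw [smul_smul]; congr 1; ring
        · simp
    simp only [this]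
    rw [sum_add_distrib, sum_add_distrib]
    simp
  rw [h0]
  simp only [h1]
  rw [sum_add_distrib, sum_add_distrib, sum_comm (f := fun k j =>
    if k = next j then (sg j / 3 : ℂ) • arc k else 0)]
  have h2 : ∀ j : Fin L, ∑ k : Fin L, (if k = next j then (sg j / 3 : ℂ) • arc k else 0) =
      (-(sg (next j)) / 3 : ℂ) • arc (next j) := by
    intro j
    rw [sum_ite_eq' univ (next j)]
    simp [sg_next hE]
  simp only [h2]
  have h3 : ∑ j : Fin L, (-(sg (next j)) / 3 : ℂ) • arc (next j) =
      ∑ j : Fin L, (-(sg j) / 3 : ℂ) • arc j :=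
    (Equiv.ofBijective _ (next_bij (L := L))).sum_comp (fun j => (-(sg j) / 3 : ℂ) • arc j)
  rw [h3, ← sum_add_distrib, ← sum_add_distrib]
  unfold st
  rw [smul_sum]
  apply sum_congr rfl
  intro j _
  rw [sg_next hE, smul_smul, ← add_smul, ← add_smul]
  congr 1
  ring

lemma v2 : v 2 = 0 := by simp [v]
lemma v0 : v 0 = 1 := by simp [v]

lemma st_ne (hL : 3 ≤ L) : st L ≠ 0 := by
  have hL2 : 2 ≤ L := by omega
  intro h
  set o : Fin L := ⟨0, by omega⟩ with ho
  have hne := next_ne hL2 o
  set x : Fin L → Fin 3 := update (update (fun _ => 0) o 2) (next o) 2 with hx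
  have hxo : x o = 2 := by rw [hx, update_of_ne hne, update_self]
  have hxn : x (next o) = 2 := by rw [hx, update_self]
  have h1 := congrFun h x
  simp only [st, Finset.sum_apply, Pi.smul_apply, smul_eq_mul, Pi.zero_apply] at h1
  rw [sum_eq_single o] at h1
  · have h2 : arc o x = 1 := by
      unfold arc
      rw [A_apply hL2, if_pos (by rw [hxo, hxn])]
      apply prod_eq_one
      intro k hk
      have hk1 := (mem_erase.mp hk).1
      have hk2 := (mem_erase.mp (mem_erase.mp hk).2).1
      have : x k = 0 := by rw [hx, update_of_ne hk1, update_of_ne hk2]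
      rw [this, v0]
    rw [h2] at h1
    simp [sg] at h1
  · intro j _ hj
    have h2 : arc j x = 0 := by
      unfold arc
      rw [A_apply hL2]
      split_ifs
      · by_cases h3 : o = next j
        · apply prod_eq_zero (i := next o)
          · rw [mem_erase, mem_erase]
            refine ⟨fun h4 => hj (next_inj h4).symm, ?_, mem_univ _⟩
            intro h4
            exact next_next_ne hL o (h3.trans (by rw [h4]))
          · rw [hxn, v2]
        · apply prod_eq_zero (i := o)
          · rw [mem_erase, mem_erase]
            exact ⟨h3, fun h4 => hj h4.symm, mem_univ _⟩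
          · rw [hxo, v2]
      · rfl
    rw [h2, mul_zero]
  · intro h'; exact absurd (mem_univ _) h'

lemma eig_st (hL : 3 ≤ L) (hE : Even L) (a c : ℝ) :
    IsEigenvalue L a 0 c ((L * (a + c) + c : ℝ) : ℂ) := by
  refine ⟨st L, st_ne hL, ?_⟩
  rw [H_eq (by omega), K_st hL hE]
  funext x
  simp only [Pi.add_apply, Pi.smul_apply, smul_eq_mul, Complex.ofReal_zero, zero_mul]
  push_cast
  ring

end P348h
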