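import Mathlib

namespace P348h

/-- The spin-one matrices `S^x, S^y, S^z` in the Cartesian basis, `(S^α)_{bc} = -i ε_{αbc}`. -/
noncomputable def S : Fin 3 → Matrix (Fin 3) (Fin 3) ℂ :=
  ![!![0, 0, 0; 0, 0, -Complex.I; 0, Complex.I, 0],
    !![0, 0, Complex.I; 0, 0, 0; -Complex.I, 0, 0],
    !![0, -Complex.I, 0; Complex.I, 0, 0; 0, 0, 0]]

/-- The cyclic successor of the site `j` on the ring of `L` sites. -/
def next {L : ℕ} (j : Fin L) : Fin L :=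
  ⟨(j.val + 1) % L, Nat.mod_lt _ (lt_of_le_of_lt (Nat.zero_le _) j.isLt)⟩

/-- `(ℂ³)^{⊗ L}`: vectors are functions on the basis labels `Fin L → Fin 3`. -/
abbrev Vec (L : ℕ) : Type := (Fin L → Fin 3) → ℂ

/-- The one-site matrix `A` acting on the `j`-th tensor factor. -/
noncomputable def act {L : ℕ} (A : Matrix (Fin 3) (Fin 3) ℂ) (j : Fin L) (ψ : Vec L) : Vec L :=
  fun x => ∑ b : Fin 3, A (x j) b * ψ (Function.update x j b)

/-- The bond operator `q_j = ∑_α S^α_j S^α_{j+1}` (indices of sites modulo `L`). -/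
noncomputable def q {L : ℕ} (j : Fin L) (ψ : Vec L) : Vec L :=
  ∑ α : Fin 3, act (S α) j (act (S α) (next j) ψ)

/-- The spin-one ring Hamiltonian `∑_j f(q_j)` with `f(q) = a + b q + c q²`. -/
noncomputable def H (L : ℕ) (a b c : ℝ) (ψ : Vec L) : Vec L :=
  ∑ j : Fin L, ((a : ℂ) • ψ + (b : ℂ) • q j ψ + (c : ℂ) • q j (q j ψ))

/-- `E` is an eigenvalue of `∑_j f(q_j)`. -/
def IsEigenvalue (L : ℕ) (a b c : ℝ) (E : ℂ) : Prop :=
  ∃ ψ : Vec L, ψ ≠ 0 ∧ H L a b c ψ = E • ψ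

end P348h
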