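import Vale.Agent.P348h.Core
import Vale.Agent.P348h.Defs

open Finset Function

namespace P348h

lemma S_sum (u v : Fin 3) (F : Fin 3 → Fin 3 → ℂ) :
    ∑ α : Fin 3, ∑ b : Fin 3, S α u b * ∑ c : Fin 3, S α v c * F b c =
      F v u - if u = v then ∑ c, F c c else 0 := by
  have hI : Complex.I * Complex.I = -1 := Complex.I_mul_I
  fin_cases u <;> fin_cases v <;>
    simp [S, Fin.sum_univ_three] <;> ring_nf <;> simp [Complex.I_sq] <;> ring_nf

lemma S_herm (α : Fin 3) : (S α).conjTranspose = S α := by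
  ext i j
  fin_cases α <;> fin_cases i <;> fin_cases j <;> simp [S, Matrix.conjTranspose_apply]

lemma S_casimir : ∑ α, S α * S α = (2 : ℂ) • (1 : Matrix (Fin 3) (Fin 3) ℂ) := by
  ext i j
  fin_cases i <;> fin_cases j <;>
    simp [S, Matrix.mul_apply, Fin.sum_univ_three, Complex.I_mul_I] <;> norm_num

lemma S_comm01 : S 0 * S 1 - S 1 * S 0 = Complex.I • S 2 := by
  ext i j
  fin_cases i <;> fin_cases j <;>
    simp [S, Matrix.mul_apply, Fin.sum_univ_three, Complex.I_mul_I]

lemma S_comm12 : S 1 * S 2 - S 2 * S 1 = Complex.I • S 0 := by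
  ext i j
  fin_cases i <;> fin_cases j <;>
    simp [S, Matrix.mul_apply, Fin.sum_univ_three, Complex.I_mul_I]

lemma S_comm20 : S 2 * S 0 - S 0 * S 2 = Complex.I • S 1 := by
  ext i j
  fin_cases i <;> fin_cases j <;>
    simp [S, Matrix.mul_apply, Fin.sum_univ_three, Complex.I_mul_I]

/-- exchange of two sites -/
def sw {ι : Type*} [DecidableEq ι] (a b : ι) (x : ι → Fin 3) : ι → Fin 3 :=
  update (update x a (x b)) b (x a)

lemma next_ne {L : ℕ} (hL : 2 ≤ L) (j : Fin L) : j ≠ next j := by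
  intro h
  have h1 := congrArg Fin.val h
  simp only [next] at h1
  have h2 := j.isLt
  by_cases h3 : j.val + 1 = L
  · rw [h3, Nat.mod_self] at h1; omega
  · rw [Nat.mod_eq_of_lt (by omega)] at h1; omega

lemma next_inj {L : ℕ} : Function.Injective (next (L := L)) := by
  intro i j h
  have h1 := congrArg Fin.val h
  simp only [next] at h1
  have hi := i.isLt
  have hj := j.isLt
  apply Fin.ext
  by_cases h2 : i.val + 1 = L <;> by_cases h3 : j.val + 1 = L
  · omega
  · rw [h2, Nat.mod_self, Nat.mod_eq_of_lt (by omega)] at h1; omega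
  · rw [h3, Nat.mod_self, Nat.mod_eq_of_lt (by omega)] at h1; omega
  · rw [Nat.mod_eq_of_lt (by omega), Nat.mod_eq_of_lt (by omega)] at h1; omega

lemma next_next_ne {L : ℕ} (hL : 3 ≤ L) (j : Fin L) : j ≠ next (next j) := by
  intro h
  have h1 := congrArg Fin.val h
  simp only [next] at h1
  have h2 := j.isLt
  by_cases h3 : j.val + 1 = L
  · rw [h3, Nat.mod_self, Nat.mod_eq_of_lt (by omega)] at h1; omega
  · rw [Nat.mod_eq_of_lt (show j.val + 1 < L by omega)] at h1
    by_cases h4 : j.val + 1 + 1 = L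
    · rw [h4, Nat.mod_self] at h1; omega
    · rw [Nat.mod_eq_of_lt (by omega)] at h1; omega

lemma q_apply {L : ℕ} (hL : 2 ≤ L) (j : Fin L) (ψ : Vec L) (x : Fin L → Fin 3) :
    q j ψ x = ψ (sw j (next j) x) -
      if x j = x (next j) then ∑ c, ψ (put j (next j) c x) else 0 := by
  have hne := next_ne hL j
  have h1 : q j ψ x = ∑ α : Fin 3, ∑ b : Fin 3, S α (x j) b * ∑ c : Fin 3, S α (x (next j)) c *
      ψ (update (update x j b) (next j) c) := by
    simp only [q, Finset.sum_apply, act]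
    apply sum_congr rfl; intro α _
    apply sum_congr rfl; intro b _
    rw [update_of_ne hne.symm]
  rw [h1, S_sum (x j) (x (next j)) (fun b c => ψ (update (update x j b) (next j) c))]
  rfl

lemma q_eq {L : ℕ} (hL : 2 ≤ L) (j : Fin L) (ψ : Vec L) :
    q j ψ = (fun x => ψ (sw j (next j) x)) - (3 : ℂ) • P j (next j) ψ := by
  funext x
  rw [q_apply hL]
  simp only [Pi.sub_apply, Pi.smul_apply, smul_eq_mul, P]
  congr 1
  split_ifs
  · ring
  · ring

lemma sw_sw {ι : Type*} [DecidableEq ι] (a b : ι) (hab : a ≠ b) (x : ι → Fin 3) :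
    sw a b (sw a b x) = x := by
  funext k
  simp only [sw, update_apply]
  split_ifs <;> simp_all

lemma sw_a {ι : Type*} [DecidableEq ι] (a b : ι) (hab : a ≠ b) (x : ι → Fin 3) :
    sw a b x a = x b := by
  simp only [sw, update_apply]; split_ifs <;> simp_all

lemma sw_b {ι : Type*} [DecidableEq ι] (a b : ι) (x : ι → Fin 3) :
    sw a b x b = x a := by
  simp [sw]

lemma put_sw {ι : Type*} [DecidableEq ι] (a b : ι) (c : Fin 3) (x : ι → Fin 3) :
    put a b c (sw a b x) = put a b c x := by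
  funext k
  simp only [put, sw, update_apply]
  split_ifs <;> simp_all

lemma sw_put {ι : Type*} [DecidableEq ι] (a b : ι) (hab : a ≠ b) (c : Fin 3) (x : ι → Fin 3) :
    sw a b (put a b c x) = put a b c x := by
  funext k
  simp only [put, sw, update_apply]
  split_ifs <;> simp_all

/-- `q² = 1 + 3 P`. -/
lemma q_sq {L : ℕ} (hL : 2 ≤ L) (j : Fin L) (ψ : Vec L) :
    q j (q j ψ) = ψ + (3 : ℂ) • P j (next j) ψ := by
  have hne := next_ne hL j
  funext x
  rw [q_apply hL]
  simp only [q_apply hL, sw_sw _ _ hne, sw_a _ _ hne, sw_b, put_sw, sw_put _ _ hne, put_a, put_b,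
    if_true, put_put _ _ hne, Pi.add_apply, Pi.smul_apply, smul_eq_mul, P]
  by_cases h : x j = x (next j)
  · rw [if_pos h, if_pos h.symm, if_pos h, Fin.sum_univ_three, Fin.sum_univ_three]
    ring
  · rw [if_neg h, if_neg (fun h' => h h'.symm), if_neg h]
    ring

end P348h
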