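import Mathlib

open Finset Function

namespace P348h

variable {ι : Type*} [Fintype ι] [DecidableEq ι]

/-- hermitian form -/
noncomputable def ip {X : Type*} [Fintype X] (φ ψ : X → ℂ) : ℂ := ∑ x, (starRingEnd ℂ) (φ x) * ψ x

section ipsec
variable {X : Type*} [Fintype X]

lemma ip_add_right (φ ψ χ : X → ℂ) : ip φ (ψ + χ) = ip φ ψ + ip φ χ := by
  simp [ip, mul_add, sum_add_distrib]

lemma ip_add_left (φ ψ χ : X → ℂ) : ip (φ + ψ) χ = ip φ χ + ip ψ χ := by
  simp [ip, add_mul, sum_add_distrib]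

lemma ip_smul_right (c : ℂ) (φ ψ : X → ℂ) : ip φ (c • ψ) = c * ip φ ψ := by
  simp only [ip, Pi.smul_apply, smul_eq_mul, mul_sum]
  apply sum_congr rfl; intros; ring

lemma ip_smul_left (c : ℂ) (φ ψ : X → ℂ) : ip (c • φ) ψ = (starRingEnd ℂ) c * ip φ ψ := by
  simp only [ip, Pi.smul_apply, smul_eq_mul, mul_sum, map_mul]
  apply sum_congr rfl; intros; ring

lemma ip_conj (φ ψ : X → ℂ) : (starRingEnd ℂ) (ip φ ψ) = ip ψ φ := by
  simp only [ip, map_sum, map_mul, Complex.conj_conj]
  apply sum_congr rfl; intros; ring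

lemma ip_re_comm (φ ψ : X → ℂ) : (ip φ ψ).re = (ip ψ φ).re := by
  rw [← ip_conj φ ψ]; simp

lemma ip_self (φ : X → ℂ) : ip φ φ = ((∑ x, Complex.normSq (φ x) : ℝ) : ℂ) := by
  simp only [ip, Complex.ofReal_sum]
  apply sum_congr rfl
  intro x _
  rw [mul_comm, Complex.mul_conj]

lemma ip_self_nonneg (φ : X → ℂ) : 0 ≤ (ip φ φ).re := by
  rw [ip_self, Complex.ofReal_re]
  exact sum_nonneg fun x _ => Complex.normSq_nonneg _

lemma ip_self_im (φ : X → ℂ) : (ip φ φ).im = 0 := by
  rw [ip_self, Complex.ofReal_im]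

lemma ip_self_pos (φ : X → ℂ) (h : φ ≠ 0) : 0 < (ip φ φ).re := by
  rw [ip_self, Complex.ofReal_re]
  obtain ⟨x, hx⟩ := Function.ne_iff.mp h
  apply sum_pos' (fun x _ => Complex.normSq_nonneg _)
  exact ⟨x, mem_univ _, Complex.normSq_pos.mpr hx⟩

lemma ip_sum_right {κ : Type*} (s : Finset κ) (φ : X → ℂ) (f : κ → X → ℂ) :
    ip φ (∑ k ∈ s, f k) = ∑ k ∈ s, ip φ (f k) := by
  simp only [ip, Finset.sum_apply, mul_sum]
  rw [sum_comm]

lemma ip_sum_left {κ : Type*} (s : Finset κ) (φ : X → ℂ) (f : κ → X → ℂ) :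
    ip (∑ k ∈ s, f k) φ = ∑ k ∈ s, ip (f k) φ := by
  simp only [ip, Finset.sum_apply, map_sum, sum_mul]
  rw [sum_comm]

end ipsec

lemma avg (a : ι) (F : (ι → Fin 3) → ℂ) :
    ∑ x : ι → Fin 3, ∑ s : Fin 3, F (update x a s) = 3 * ∑ x, F x := by
  have h1 : ∑ x : ι → Fin 3, ∑ s : Fin 3, F (update x a s) =
      ∑ p : (ι → Fin 3) × Fin 3, F (update p.1 a p.2) := by
    rw [Fintype.sum_prod_type]
  have h2 : ∑ p : (ι → Fin 3) × Fin 3, F (update p.1 a p.2) =
      ∑ p : (ι → Fin 3) × Fin 3, F p.1 := by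
    apply sum_nbij' (fun p => (update p.1 a p.2, p.1 a)) (fun p => (update p.1 a p.2, p.1 a))
    · simp
    · simp
    · intro p _
      simp
    · intro p _
      simp
    · intro p _
      rfl
  have h3 : ∑ p : (ι → Fin 3) × Fin 3, F p.1 = 3 * ∑ x, F x := by
    rw [Fintype.sum_prod_type]
    simp [mul_sum]
  rw [h1, h2, h3]

/-- put value `c` at both `a` and `b` -/
def put (a b : ι) (c : Fin 3) (x : ι → Fin 3) : ι → Fin 3 := update (update x a c) b c

/-- projector onto the bond singlet -/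
noncomputable def P (a b : ι) (ψ : (ι → Fin 3) → ℂ) : (ι → Fin 3) → ℂ := fun x =>
  if x a = x b then (1 / 3 : ℂ) * ∑ c, ψ (put a b c x) else 0

lemma P_comm (a b : ι) (hab : a ≠ b) (ψ : (ι → Fin 3) → ℂ) : P a b ψ = P b a ψ := by
  funext x
  simp only [P, put]
  by_cases h : x a = x b
  · rw [if_pos h, if_pos h.symm]
    congr 1
    apply sum_congr rfl
    intro c _
    rw [update_comm hab]
  · rw [if_neg h, if_neg (fun h' => h h'.symm)]

lemma P_add (a b : ι) (φ ψ : (ι → Fin 3) → ℂ) : P a b (φ + ψ) = P a b φ + P a b ψ := by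
  funext x
  simp only [P, Pi.add_apply]
  split_ifs
  · rw [sum_add_distrib]; ring
  · simp

lemma P_smul (a b : ι) (c : ℂ) (ψ : (ι → Fin 3) → ℂ) : P a b (c • ψ) = c • P a b ψ := by
  funext x
  simp only [P, Pi.smul_apply, smul_eq_mul]
  split_ifs
  · rw [← mul_sum]; ring
  · simp

lemma put_put (a b : ι) (hab : a ≠ b) (c d : Fin 3) (x : ι → Fin 3) :
    put a b c (put a b d x) = put a b c x := by
  funext k
  simp only [put, update_apply]
  split_ifs <;> simp_all

lemma put_a (a b : ι) (c : Fin 3) (x : ι → Fin 3) : put a b c x a = c := by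
  simp only [put, update_apply]; split_ifs <;> simp_all

lemma put_b (a b : ι) (c : Fin 3) (x : ι → Fin 3) : put a b c x b = c := by
  simp [put]

lemma P_put (a b : ι) (hab : a ≠ b) (c : Fin 3) (ψ : (ι → Fin 3) → ℂ) (x : ι → Fin 3) :
    P a b ψ (put a b c x) = (1 / 3 : ℂ) * ∑ d, ψ (put a b d x) := by
  simp only [P, put_a, put_b, if_true, put_put a b hab]

lemma P_idem (a b : ι) (hab : a ≠ b) (ψ : (ι → Fin 3) → ℂ) : P a b (P a b ψ) = P a b ψ := by
  funext x
  conv_lhs => rw [P]
  simp only [P_put a b hab]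
  simp only [P]
  split_ifs
  · simp
  · rfl

lemma avg2 (a b : ι) (hab : a ≠ b) (G : (ι → Fin 3) → ℂ) :
    ∑ x : ι → Fin 3, (if x a = x b then G x else 0) =
      (1 / 9 : ℂ) * ∑ x : ι → Fin 3, ∑ c, G (put a b c x) := by
  have h1 := avg a (fun x : ι → Fin 3 => if x a = x b then G x else 0)
  have h2 := avg b (fun x : ι → Fin 3 => ∑ s : Fin 3,
    (if (update x a s) a = (update x a s) b then G (update x a s) else 0))
  have h3 : ∀ x : ι → Fin 3, ∀ t : Fin 3, (∑ s : Fin 3,
      (if (update (update x b t) a s) a = (update (update x b t) a s) b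
        then G (update (update x b t) a s) else 0)) = G (put a b t x) := by
    intro x t
    have : ∀ s : Fin 3, (if (update (update x b t) a s) a = (update (update x b t) a s) b
        then G (update (update x b t) a s) else 0) = if s = t then G (put a b t x) else 0 := by
      intro s
      have e1 : (update (update x b t) a s) a = s := by simp
      have e2 : (update (update x b t) a s) b = t := by
        rw [update_of_ne hab.symm]; simp
      rw [e1, e2]
      by_cases hst : s = t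
      · subst hst
        simp only [if_true, put]
        rw [update_comm hab]
      · rw [if_neg hst, if_neg hst]
    simp only [this]
    simp
  simp only [h3] at h2
  rw [h2, h1]
  ring

lemma P_symm (a b : ι) (hab : a ≠ b) (φ ψ : (ι → Fin 3) → ℂ) :
    ip φ (P a b ψ) = ip (P a b φ) ψ := by
  have h1 : ip φ (P a b ψ) = ∑ x : ι → Fin 3, (if x a = x b then
      (starRingEnd ℂ) (φ x) * ((1 / 3 : ℂ) * ∑ c, ψ (put a b c x)) else 0) := by
    simp only [ip, P]
    apply sum_congr rfl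
    intro x _
    split_ifs <;> simp
  have h2 : ip (P a b φ) ψ = ∑ x : ι → Fin 3, (if x a = x b then
      (starRingEnd ℂ) ((1 / 3 : ℂ) * ∑ c, φ (put a b c x)) * ψ x else 0) := by
    simp only [ip, P]
    apply sum_congr rfl
    intro x _
    split_ifs <;> simp
  rw [h1, h2, avg2 a b hab, avg2 a b hab]
  congr 1
  apply sum_congr rfl
  intro x _
  simp only [put_put a b hab]
  rw [← sum_mul, ← mul_sum]
  simp only [map_mul, map_sum, map_div₀, map_one, Complex.conj_ofNat]
  ring

lemma P_far (a b c d : ι) (hac : a ≠ c) (had : a ≠ d) (hbc : b ≠ c) (hbd : b ≠ d)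
    (ψ : (ι → Fin 3) → ℂ) : P a b (P c d ψ) = P c d (P a b ψ) := by
  funext x
  have e : ∀ s : Fin 3, put a b s x c = x c ∧ put a b s x d = x d := by
    intro s
    simp only [put, update_apply]
    constructor <;> split_ifs <;> simp_all
  have e' : ∀ s : Fin 3, put c d s x a = x a ∧ put c d s x b = x b := by
    intro s
    simp only [put, update_apply]
    constructor <;> split_ifs <;> simp_all
  have e2 : ∀ s t : Fin 3, put c d t (put a b s x) = put a b s (put c d t x) := by
    intro s t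
    funext k
    simp only [put, update_apply]
    split_ifs <;> simp_all
  simp only [P, (e _).1, (e _).2, (e' _).1, (e' _).2]
  by_cases h1 : x a = x b
  · by_cases h2 : x c = x d
    · simp only [h1, h2, if_true]
      simp only [mul_sum]
      rw [sum_comm]
      apply sum_congr rfl; intro t _
      apply sum_congr rfl; intro s _
      rw [e2]
    · simp [h1, h2]
  · by_cases h2 : x c = x d
    · simp [h1, h2]
    · simp [h1, h2]

lemma P_tri (a b c : ι) (hab : a ≠ b) (hac : a ≠ c) (hbc : b ≠ c) (ψ : (ι → Fin 3) → ℂ) :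
    P a b (P b c (P a b ψ)) = (1 / 9 : ℂ) • P a b ψ := by
  funext x
  have key : ∀ s : Fin 3, P b c (P a b ψ) (put a b s x) =
      if s = x c then (1 / 9 : ℂ) * ∑ d, ψ (put a b d x) else 0 := by
    intro s
    have e1 : put a b s x b = s := put_b a b s x
    have e2 : put a b s x c = x c := by
      simp only [put, update_apply]; split_ifs <;> simp_all
    rw [P, e1, e2]
    by_cases hs : s = x c
    · rw [if_pos hs, if_pos hs]
      have : ∀ t : Fin 3, P a b ψ (put b c t (put a b s x)) =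
          if t = s then (1 / 3 : ℂ) * ∑ d, ψ (put a b d x) else 0 := by
        intro t
        have f1 : put b c t (put a b s x) a = s := by
          simp only [put, update_apply]; split_ifs <;> simp_all
        have f2 : put b c t (put a b s x) b = t := put_a b c t _
        rw [P, f1, f2]
        by_cases ht : t = s
        · rw [if_pos ht, if_pos ht.symm]
          congr 1
          apply sum_congr rfl
          intro d _
          congr 1
          funext k
          simp only [put, update_apply]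
          split_ifs <;> simp_all
        · rw [if_neg ht, if_neg (fun h => ht h.symm)]
      simp only [this]
      rw [sum_ite_eq' univ s]
      simp only [mem_univ, if_true]
      ring
    · rw [if_neg hs, if_neg hs]
  conv_lhs => rw [P]
  simp only [key]
  simp only [Pi.smul_apply, P, smul_eq_mul]
  by_cases h : x a = x b
  · rw [if_pos h, if_pos h]
    simp only [sum_ite_eq', mem_univ, if_true]
    ring
  · rw [if_neg h, if_neg h]; simp

/-- adjacent bonds -/
lemma adj_ge {X : Type*} [Fintype X] (e f : (X → ℂ) → (X → ℂ))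
    (he : ∀ φ ψ, ip φ (e ψ) = ip (e φ) ψ) (hf : ∀ φ ψ, ip φ (f ψ) = ip (f φ) ψ)
    (hee : ∀ ψ, e (e ψ) = e ψ) (hff : ∀ ψ, f (f ψ) = f ψ)
    (hfef : ∀ ψ, f (e (f ψ)) = (1 / 9 : ℂ) • f ψ) (ψ : X → ℂ) :
    -((ip (e ψ) (e ψ)).re + (ip (f ψ) (f ψ)).re) / 6 ≤ (ip (e ψ) (f ψ)).re := by
  have h0 := ip_self_nonneg (e ψ + (3 : ℂ) • e (f ψ))
  have h1 : ip (e ψ + (3 : ℂ) • e (f ψ)) (e ψ + (3 : ℂ) • e (f ψ)) =
      ip (e ψ) (e ψ) + 3 * ip (e ψ) (e (f ψ)) + 3 * ip (e (f ψ)) (e ψ) +
        9 * ip (e (f ψ)) (e (f ψ)) := by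
    rw [ip_add_left, ip_add_right, ip_add_right, ip_smul_left, ip_smul_left, ip_smul_right,
      ip_smul_right, Complex.conj_ofNat]
    ring
  have h2 : ip (e ψ) (e (f ψ)) = ip (e ψ) (f ψ) := by
    rw [he, hee]
  have h3 : ip (e (f ψ)) (e ψ) = ip (f ψ) (e ψ) := by
    rw [← he, hee]
  have h4 : ip (e (f ψ)) (e (f ψ)) = (1 / 9 : ℂ) * ip (f ψ) (f ψ) := by
    rw [← he, hee]
    have : ip (f ψ) (e (f ψ)) = ip (f ψ) (f (e (f ψ))) := by
      rw [hf (f ψ), hff]
    rw [this, hfef, ip_smul_right]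
  rw [h1, h2, h3, h4] at h0
  have h5 := ip_re_comm (f ψ) (e ψ)
  simp only [Complex.add_re] at h0
  have r1 : (3 * ip (e ψ) (f ψ)).re = 3 * (ip (e ψ) (f ψ)).re := by
    simp
  have r2 : (3 * ip (f ψ) (e ψ)).re = 3 * (ip (f ψ) (e ψ)).re := by
    simp
  have r3 : (9 * (1 / 9 * ip (f ψ) (f ψ)) : ℂ).re = (ip (f ψ) (f ψ)).re := by
    congr 1
    ring
  rw [r1, r2, r3, h5] at h0
  linarith

/-- far bonds -/
lemma far_ge {X : Type*} [Fintype X] (e f : (X → ℂ) → (X → ℂ))
    (he : ∀ φ ψ, ip φ (e ψ) = ip (e φ) ψ) (hf : ∀ φ ψ, ip φ (f ψ) = ip (f φ) ψ)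
    (hee : ∀ ψ, e (e ψ) = e ψ) (hff : ∀ ψ, f (f ψ) = f ψ)
    (hc : ∀ ψ, e (f ψ) = f (e ψ)) (ψ : X → ℂ) :
    0 ≤ (ip (e ψ) (f ψ)).re := by
  have h1 : ip (e ψ) (f ψ) = ip (f (e ψ)) (f (e ψ)) := by
    rw [← hf, hff, ← hc, he, hee]
  rw [h1]
  exact ip_self_nonneg _

end P348h
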