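import Vale.Agent.P348h.Bond

open Finset Function

namespace P348h

variable {L : ℕ}

/-- bond projector on the ring -/
noncomputable def e (j : Fin L) (ψ : Vec L) : Vec L := P j (next j) ψ

lemma P_comm' {ι : Type*} [Fintype ι] [DecidableEq ι] (a b : ι) (hab : a ≠ b) :
    (P a b : ((ι → Fin 3) → ℂ) → ((ι → Fin 3) → ℂ)) = P b a := by
  funext ψ
  exact P_comm a b hab ψ

lemma e_symm (hL : 2 ≤ L) (j : Fin L) (φ ψ : Vec L) : ip φ (e j ψ) = ip (e j φ) ψ :=
  P_symm _ _ (next_ne hL j) φ ψ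

lemma e_idem (hL : 2 ≤ L) (j : Fin L) (ψ : Vec L) : e j (e j ψ) = e j ψ :=
  P_idem _ _ (next_ne hL j) ψ

lemma e_tri1 (hL : 3 ≤ L) (j : Fin L) (ψ : Vec L) :
    e j (e (next j) (e j ψ)) = (1 / 9 : ℂ) • e j ψ :=
  P_tri _ _ _ (next_ne (by omega) j) (next_next_ne hL j) (next_ne (by omega) _) ψ

lemma e_tri2 (hL : 3 ≤ L) (j : Fin L) (ψ : Vec L) :
    e (next j) (e j (e (next j) ψ)) = (1 / 9 : ℂ) • e (next j) ψ := by
  have h1 : j ≠ next j := next_ne (by omega) j
  have h2 : next j ≠ next (next j) := next_ne (by omega) _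
  have h3 : j ≠ next (next j) := next_next_ne hL j
  unfold e
  rw [P_comm' j (next j) h1, P_comm' (next j) (next (next j)) h2]
  exact P_tri _ _ _ h2.symm h3.symm h1.symm ψ

/-- bond norm -/
noncomputable def nn (j : Fin L) (ψ : Vec L) : ℝ := (ip (e j ψ) (e j ψ)).re

lemma nn_nonneg (j : Fin L) (ψ : Vec L) : 0 ≤ nn j ψ := ip_self_nonneg _

lemma pair_ge (hL : 3 ≤ L) (ψ : Vec L) (j k : Fin L) :
    (if j = k then nn j ψ else 0) - (if k = next j then (nn j ψ + nn k ψ) / 6 else 0) -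
      (if j = next k then (nn j ψ + nn k ψ) / 6 else 0) ≤ (ip (e j ψ) (e k ψ)).re := by
  have hL2 : 2 ≤ L := by omega
  by_cases h1 : j = k
  · subst h1
    rw [if_pos rfl, if_neg (next_ne hL2 j)]
    simp [nn]
  · rw [if_neg h1]
    by_cases h2 : k = next j
    · subst h2
      rw [if_pos rfl, if_neg (next_next_ne hL j)]
      have := adj_ge (e j) (e (next j)) (e_symm hL2 j) (e_symm hL2 _) (e_idem hL2 j)
        (e_idem hL2 _) (e_tri2 hL j) ψ
      unfold nn
      linarith
    · rw [if_neg h2]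
      by_cases h3 : j = next k
      · subst h3
        rw [if_pos rfl]
        have := adj_ge (e k) (e (next k)) (e_symm hL2 k) (e_symm hL2 _) (e_idem hL2 k)
          (e_idem hL2 _) (e_tri2 hL k) ψ
        rw [ip_re_comm]
        unfold nn
        linarith
      · rw [if_neg h3]
        have h4 : next j ≠ next k := fun h => h1 (next_inj h)
        have := far_ge (e j) (e k) (e_symm hL2 j) (e_symm hL2 _) (e_idem hL2 j)
          (e_idem hL2 _) (fun ψ => P_far j (next j) k (next k) h1 h3 (fun h => h2 h.symm) h4 ψ) ψ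
        linarith

lemma next_bij : Function.Bijective (next (L := L)) :=
  Finite.injective_iff_bijective.mp next_inj

lemma sum_next (g : Fin L → ℝ) : ∑ j, g (next j) = ∑ j, g j :=
  (Equiv.ofBijective _ (next_bij (L := L))).sum_comp g

/-- the sum of the bond projectors -/
noncomputable def K (ψ : Vec L) : Vec L := ∑ j, e j ψ

lemma K_core (hL : 3 ≤ L) (ψ : Vec L) :
    (1 / 3 : ℝ) * ∑ j, nn j ψ ≤ (ip (K ψ) (K ψ)).re := by
  have h1 : (ip (K ψ) (K ψ)).re = ∑ j, ∑ k, (ip (e j ψ) (e k ψ)).re := by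
    unfold K
    rw [ip_sum_left, Complex.re_sum]
    apply sum_congr rfl; intro j _
    rw [ip_sum_right, Complex.re_sum]
  have h2 : ∑ j, ∑ k, ((if j = k then nn j ψ else 0) -
      (if k = next j then (nn j ψ + nn k ψ) / 6 else 0) -
      (if j = next k then (nn j ψ + nn k ψ) / 6 else 0)) ≤
      ∑ j, ∑ k, (ip (e j ψ) (e k ψ)).re :=
    sum_le_sum fun j _ => sum_le_sum fun k _ => pair_ge hL ψ j k
  have h3 : ∑ j : Fin L, ∑ k, (if j = k then nn j ψ else 0) = ∑ j, nn j ψ := by
    apply sum_congr rfl; intro j _; simp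
  have h4 : ∑ j : Fin L, ∑ k, (if k = next j then (nn j ψ + nn k ψ) / 6 else 0) =
      (1 / 3) * ∑ j, nn j ψ := by
    have : ∀ j : Fin L, ∑ k, (if k = next j then (nn j ψ + nn k ψ) / 6 else 0) =
        (nn j ψ + nn (next j) ψ) / 6 := by
      intro j; simp
    simp only [this]
    rw [← sum_div, sum_add_distrib, sum_next (fun j => nn j ψ)]
    ring
  have h5 : ∑ j : Fin L, ∑ k, (if j = next k then (nn j ψ + nn k ψ) / 6 else 0) =
      (1 / 3) * ∑ j, nn j ψ := by
    rw [sum_comm]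
    have : ∀ k : Fin L, ∑ j, (if j = next k then (nn j ψ + nn k ψ) / 6 else 0) =
        (nn (next k) ψ + nn k ψ) / 6 := by
      intro j; simp
    simp only [this]
    rw [← sum_div, sum_add_distrib, sum_next (fun j => nn j ψ)]
    ring
  simp only [sum_sub_distrib] at h2
  rw [h3, h4, h5] at h2
  rw [h1]
  linarith

lemma ip_K (hL : 3 ≤ L) (ψ : Vec L) : ip ψ (K ψ) = ((∑ j, nn j ψ : ℝ) : ℂ) := by
  unfold K
  rw [ip_sum_right, Complex.ofReal_sum]
  apply sum_congr rfl; intro j _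
  have h : ip ψ (e j ψ) = ip (e j ψ) (e j ψ) := by
    rw [← e_symm (by omega), e_idem (by omega)]
  rw [h]
  apply Complex.ext
  · simp [nn]
  · simp [ip_self_im]

lemma K_eig (hL : 3 ≤ L) (ψ : Vec L) (hψ : ψ ≠ 0) (μ : ℂ) (h : K ψ = μ • ψ) :
    μ = 0 ∨ (μ.im = 0 ∧ 1 / 3 ≤ μ.re) := by
  have hpos := ip_self_pos ψ hψ
  set N : ℝ := (ip ψ ψ).re with hN
  have hNN : ip ψ ψ = (N : ℂ) := by
    apply Complex.ext
    · simp [hN]
    · simp [ip_self_im]
  have h1 := ip_K hL ψ
  rw [h, ip_smul_right, hNN] at h1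
  have hre : μ.re * N = ∑ j, nn j ψ := by
    have := congrArg Complex.re h1
    simpa using this
  have him : μ.im * N = 0 := by
    have := congrArg Complex.im h1
    simpa using this
  have him0 : μ.im = 0 := by
    rcases mul_eq_zero.mp him with h' | h'
    · exact h'
    · exact absurd h' hpos.ne'
  have h2 := K_core hL ψ
  rw [h, ip_smul_left, ip_smul_right, hNN, ← hre] at h2
  have h3 : ((starRingEnd ℂ) μ * (μ * (N : ℂ))).re = μ.re * μ.re * N := by
    simp [him0]; ring
  rw [h3] at h2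
  have h4 : (1 / 3 : ℝ) * μ.re ≤ μ.re * μ.re := by
    have : (1 / 3 * μ.re) * N ≤ (μ.re * μ.re) * N := by linarith
    exact le_of_mul_le_mul_right this hpos
  have h5 : 0 ≤ μ.re := by
    have : 0 ≤ μ.re * N := by
      rw [hre]; exact sum_nonneg fun j _ => nn_nonneg j ψ
    exact nonneg_of_mul_nonneg_left this hpos
  rcases h5.eq_or_lt with h6 | h6
  · left
    apply Complex.ext
    · simp [← h6]
    · simp [him0]
  · right
    refine ⟨him0, ?_⟩
    exact le_of_mul_le_mul_right h4 h6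

/-- exchange operator -/
def SW (j : Fin L) (ψ : Vec L) : Vec L := fun x => ψ (sw j (next j) x)

lemma H_eq (hL : 2 ≤ L) (a b c : ℝ) (ψ : Vec L) :
    H L a b c ψ = ((L * (a + c) : ℝ) : ℂ) • ψ + (b : ℂ) • ∑ j, SW j ψ +
      ((3 * (c - b) : ℝ) : ℂ) • K ψ := by
  unfold H K
  have : ∀ j : Fin L, ((a : ℂ) • ψ + (b : ℂ) • q j ψ + (c : ℂ) • q j (q j ψ)) =
      ((a + c : ℝ) : ℂ) • ψ + (b : ℂ) • SW j ψ + ((3 * (c - b) : ℝ) : ℂ) • e j ψ := by
    intro j
    rw [q_sq hL, q_eq hL]
    funext x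
    simp only [Pi.add_apply, Pi.smul_apply, Pi.sub_apply, smul_eq_mul, SW, e]
    push_cast
    ring
  simp only [this]
  rw [sum_add_distrib, sum_add_distrib]
  have h0 : ∑ _j : Fin L, ((a + c : ℝ) : ℂ) • ψ = ((L * (a + c) : ℝ) : ℂ) • ψ := by
    rw [sum_const, card_univ, Fintype.card_fin, ← Nat.cast_smul_eq_nsmul ℂ, smul_smul]
    congr 1
    push_cast
    ring
  rw [h0, ← smul_sum, ← smul_sum]

/-- product state -/
noncomputable def pr (u : Fin L → Fin 3 → ℂ) : Vec L := fun x => ∏ j, u j (x j)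

lemma SW_pr (hL : 2 ≤ L) (j : Fin L) (u : Fin L → Fin 3 → ℂ) :
    SW j (pr u) = pr (fun k => u (Equiv.swap j (next j) k)) := by
  have hne := next_ne hL j
  funext x
  simp only [SW, pr]
  rw [← Equiv.prod_comp (Equiv.swap j (next j)) (fun k => u k (sw j (next j) x k))]
  apply prod_congr rfl
  intro k _
  congr 1
  by_cases h1 : k = j
  · subst h1; rw [Equiv.swap_apply_left, sw_b]
  · by_cases h2 : k = next j
    · subst h2; rw [Equiv.swap_apply_right, sw_a _ _ hne]
    · rw [Equiv.swap_apply_of_ne_of_ne h1 h2]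
      simp only [sw]
      rw [update_of_ne h2, update_of_ne h1]

lemma e_pr (hL : 2 ≤ L) (j : Fin L) (u : Fin L → Fin 3 → ℂ)
    (h : ∑ c, u j c * u (next j) c = 0) : e j (pr u) = 0 := by
  have hne := next_ne hL j
  funext x
  simp only [e, P, Pi.zero_apply]
  split_ifs with hx
  · have : ∀ c, pr u (put j (next j) c x) = (u j c * u (next j) c) *
        ∏ k ∈ (univ.erase j).erase (next j), u k (x k) := by
      intro c
      simp only [pr]
      rw [← mul_prod_erase univ _ (mem_univ j),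
        ← mul_prod_erase (univ.erase j) _ (mem_erase.mpr ⟨hne.symm, mem_univ (next j)⟩),
        put_a, put_b, mul_assoc]
      congr 2
      apply prod_congr rfl
      intro k hk
      have hk1 := (mem_erase.mp hk).1
      have hk2 := (mem_erase.mp (mem_erase.mp hk).2).1
      simp only [put]
      rw [update_of_ne hk1, update_of_ne hk2]
    simp only [this]
    rw [← sum_mul, h]
    simp
  · rfl

end P348h
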