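import Vale.Agent.P348h.Gap

open Finset Function

namespace P348h

variable {L : ℕ}

/-- isotropic vector -/
noncomputable def v : Fin 3 → ℂ := ![1, Complex.I, 0]
/-- orthogonal vector -/
noncomputable def w : Fin 3 → ℂ := ![0, 0, 1]

/-- the all-`v` product state -/
noncomputable def gs (L : ℕ) : Vec L := pr (fun _ => v)

/-- one excitation at site `k` -/
noncomputable def ex (k : Fin L) : Vec L := pr (update (fun _ => v) k w)

lemma vv : ∑ c, v c * v c = 0 := by simp [v, Fin.sum_univ_three]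
lemma vw : ∑ c, v c * w c = 0 := by simp [v, w, Fin.sum_univ_three]
lemma wv : ∑ c, w c * v c = 0 := by simp [v, w, Fin.sum_univ_three]

lemma e_gs (hL : 2 ≤ L) (j : Fin L) : e j (gs L) = 0 := e_pr hL j _ vv

lemma SW_gs (hL : 2 ≤ L) (j : Fin L) : SW j (gs L) = gs L := SW_pr hL j _

lemma e_ex (hL : 2 ≤ L) (j k : Fin L) : e j (ex k) = 0 := by
  apply e_pr hL
  have hne := next_ne hL j
  by_cases h1 : j = k
  · subst h1
    rw [update_self, update_of_ne hne.symm]
    exact wv
  · rw [update_of_ne h1]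
    by_cases h2 : next j = k
    · subst h2
      rw [update_self]; exact vw
    · rw [update_of_ne h2]; exact vv

lemma SW_ex (hL : 2 ≤ L) (j k : Fin L) : SW j (ex k) = ex (Equiv.swap j (next j) k) := by
  unfold ex
  rw [SW_pr hL]
  congr 1
  funext m
  by_cases h : m = Equiv.swap j (next j) k
  · subst h
    rw [update_self, Equiv.swap_apply_self, update_self]
  · rw [update_of_ne h, update_of_ne]
    intro h'
    apply h
    rw [← h', Equiv.swap_apply_self]

lemma SW_add (j : Fin L) (φ ψ : Vec L) : SW j (φ + ψ) = SW j φ + SW j ψ := rfl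
lemma SW_smul (j : Fin L) (c : ℂ) (ψ : Vec L) : SW j (c • ψ) = c • SW j ψ := rfl
lemma SW_sum {κ : Type*} (s : Finset κ) (j : Fin L) (f : κ → Vec L) :
    SW j (∑ k ∈ s, f k) = ∑ k ∈ s, SW j (f k) := by
  funext x; simp [SW, Finset.sum_apply]

lemma e_add (j : Fin L) (φ ψ : Vec L) : e j (φ + ψ) = e j φ + e j ψ := P_add _ _ φ ψ
lemma e_smul (j : Fin L) (c : ℂ) (ψ : Vec L) : e j (c • ψ) = c • e j ψ := P_smul _ _ c ψ
lemma e_zero (j : Fin L) : e j (0 : Vec L) = 0 := by
  have := e_smul j 0 (0 : Vec L)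
  simpa using this
lemma e_sum {κ : Type*} (s : Finset κ) (j : Fin L) (f : κ → Vec L) :
    e j (∑ k ∈ s, f k) = ∑ k ∈ s, e j (f k) := by
  classical
  induction s using Finset.induction_on with
  | empty => simp [e_zero]
  | insert a s ha ih => rw [sum_insert ha, sum_insert ha, e_add, ih]

/-- root of unity -/
noncomputable def ζ (L : ℕ) : ℂ := Complex.exp (2 * Real.pi * Complex.I / L)

lemma ζ_pow (hL : L ≠ 0) : ζ L ^ L = 1 := by
  unfold ζ
  rw [← Complex.exp_nat_mul]
  have : (L : ℂ) ≠ 0 := by exact_mod_cast hL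
  rw [mul_div_cancel₀ _ this]
  exact Complex.exp_two_pi_mul_I

lemma ζ_ne : ζ L ≠ 0 := Complex.exp_ne_zero _

lemma ζ_add_inv : ζ L + (ζ L)⁻¹ = ((2 * Real.cos (2 * Real.pi / L) : ℝ) : ℂ) := by
  unfold ζ
  rw [← Complex.exp_neg]
  push_cast
  rw [Complex.two_cos]
  congr 1
  · congr 1; ring
  · congr 1; ring

/-- plane wave -/
noncomputable def χ (k : Fin L) : ℂ := ζ L ^ k.val

lemma χ_next (k : Fin L) : χ (next k) = ζ L * χ k := by
  have hk := k.isLt
  unfold χ next
  simp only
  by_cases h : k.val + 1 = L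
  · rw [h, Nat.mod_self, pow_zero, ← pow_succ', h, ζ_pow (by omega)]
  · rw [Nat.mod_eq_of_lt (by omega), ← pow_succ']

/-- the magnon -/
noncomputable def mag (L : ℕ) : Vec L := ∑ k : Fin L, χ k • ex k

lemma sum_nextC (g : Fin L → ℂ) : ∑ j, g (next j) = ∑ j, g j :=
  (Equiv.ofBijective _ (next_bij (L := L))).sum_comp g

lemma χ_sum (hL : 2 ≤ L) (m : Fin L) :
    ∑ j, χ (Equiv.swap j (next j) m) = ((L : ℂ) - 2 + (ζ L + (ζ L)⁻¹)) * χ m := by
  have h1 : ∀ j : Fin L, χ (Equiv.swap j (next j) m) = χ m +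
      (if j = m then (ζ L - 1) * χ m else 0) +
      (if next j = m then ((ζ L)⁻¹ - 1) * χ m else 0) := by
    intro j
    have hne := next_ne hL j
    by_cases h1 : j = m
    · subst h1
      rw [Equiv.swap_apply_left, if_pos rfl, if_neg hne.symm, χ_next]
      ring
    · rw [if_neg h1]
      by_cases h2 : next j = m
      · subst h2
        rw [Equiv.swap_apply_right, if_pos rfl, χ_next]
        have := ζ_ne (L := L)
        field_simp
        ring
      · rw [if_neg h2, Equiv.swap_apply_of_ne_of_ne (fun h => h1 h.symm) (fun h => h2 h.symm)]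
        ring
  simp only [h1]
  rw [sum_add_distrib, sum_add_distrib,
    sum_nextC (fun i => if i = m then ((ζ L)⁻¹ - 1) * χ m else 0)]
  simp only [sum_const, card_univ, Fintype.card_fin, sum_ite_eq', mem_univ, if_true, nsmul_eq_mul]
  ring

lemma SW_mag (hL : 2 ≤ L) :
    ∑ j, SW j (mag L) = ((L : ℂ) - 2 + (ζ L + (ζ L)⁻¹)) • mag L := by
  have h1 : ∀ j : Fin L, SW j (mag L) = ∑ m, χ (Equiv.swap j (next j) m) • ex m := by
    intro j
    unfold mag
    rw [SW_sum]
    simp only [SW_smul, SW_ex hL]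
    rw [← Equiv.sum_comp (Equiv.swap j (next j))]
    apply sum_congr rfl
    intro k _
    rw [Equiv.swap_apply_self]
  simp only [h1]
  rw [sum_comm]
  unfold mag
  rw [smul_sum]
  apply sum_congr rfl
  intro m _
  rw [← sum_smul, χ_sum hL, smul_smul]

lemma e_mag (hL : 2 ≤ L) (j : Fin L) : e j (mag L) = 0 := by
  unfold mag
  rw [e_sum]
  apply sum_eq_zero
  intro k _
  rw [e_smul, e_ex hL, smul_zero]

lemma gs_ne : gs L ≠ 0 := by
  intro h
  have := congrFun h (fun _ => 0)
  simp [gs, pr, v] at this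

lemma mag_ne (hL : 2 ≤ L) : mag L ≠ 0 := by
  intro h
  have hx := congrFun h (update (fun _ => 0) (⟨0, by omega⟩ : Fin L) 2)
  simp only [mag, Finset.sum_apply, Pi.smul_apply, smul_eq_mul, Pi.zero_apply] at hx
  rw [sum_eq_single (⟨0, by omega⟩ : Fin L)] at hx
  · have h1 : ex (⟨0, by omega⟩ : Fin L) (update (fun _ => 0) (⟨0, by omega⟩ : Fin L) 2) = 1 := by
      unfold ex pr
      apply prod_eq_one
      intro j _
      by_cases hj : j = ⟨0, by omega⟩
      · subst hj; rw [update_self, update_self]; simp [w]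
      · rw [update_of_ne hj, update_of_ne hj]; simp [v]
    rw [h1] at hx
    simp [χ] at hx
  · intro k _ hk
    have : ex k (update (fun _ => 0) (⟨0, by omega⟩ : Fin L) 2) = 0 := by
      unfold ex pr
      apply prod_eq_zero (mem_univ k)
      rw [update_self, update_of_ne hk]
      simp [w]
    rw [this, mul_zero]
  · intro h'; exact absurd (mem_univ _) h'

end P348h
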